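import Vale.Agent.Lib.P302.Bounds
import Vale.Agent.Lib.P302.BinCheck

namespace Vale.Agent.Results.P302.Gap169_140
open Vale.Agent.Lib.P302

/-- Integer item sizes; the bin capacity is `14328`. -/
def items : List ℕ := [10477, 10473, 10464, 9912, 6648, 6240, 6168, 5616, 5328, 4896, 4824, 4776, 4752, 4728, 4704, 4488, 4464, 4344, 4344, 4152, 4032, 1944, 1933, 1932, 1930, 1927, 1925, 1921]

/-- Auxiliary reference list (not packable into 7 bins), dominated by every leaf of the search. -/
def ref : List ℕ := [9912, 6648, 6240, 6168, 5616, 5328, 4896, 4824, 4776, 4752, 4728, 4704, 4488, 4464, 4344, 4344, 4152, 4032, 1921, 1921]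

/-- A fractional solution of the configuration LP: patterns with numerators over the denominator `140`. -/
def pats : List (List ℕ × ℕ) :=
  [([10477, 1925, 1925], 70), ([10477, 1930, 1921], 70), ([6240, 6240], 17), ([10464, 1933, 1930], 70), ([6648, 6648], 70), ([9912, 4344], 140), ([5328, 4488, 4488], 70), ([6240, 4032, 4032], 70), ([6240, 5616, 1944], 2), ([4824, 4752, 4752], 70), ([4776, 4776, 4776], 36), ([4896, 4728, 4704], 124), ([4824, 4776, 4704], 16), ([5328, 4464, 4464], 32), ([4896, 4896, 4464], 8), ([5616, 4344, 4344], 70), ([5328, 4824, 4152], 38), ([5616, 4464, 4152], 68), ([6240, 4152, 1944, 1944], 34), ([4824, 4776, 4728], 16), ([10464, 1932, 1932], 70), ([10473, 1927, 1927], 70), ([6168, 6168, 1944], 70), ([10473, 1933, 1921], 70)]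

theorem ref_unpackable : ¬ PK 14328 7 (ref : Multiset ℕ) :=
  not_PK_of_pack 14328 7 ref (by decide +kernel)

theorem items_unpackable : ¬ PK 14328 (3 + 7) (items : Multiset ℕ) :=
  not_PK_of_pack_ref 14328 3 7 ref items ref_unpackable (by decide +kernel)

theorem result : ∃ a : List ℚ, IsInstance a ∧ (169:ℝ)/140 ≤ (OPT a : ℝ) - LP a := by
  refine ⟨items.map (fun x : ℕ => (x : ℚ) / ((14328 : ℕ) : ℚ)), ?_, ?_⟩
  · exact isInstance_scale 14328 items (by decide)
  · have h1 : 10 + 1 ≤ OPT (items.map (fun x : ℕ => (x : ℚ) / ((14328 : ℕ) : ℚ))) :=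
      OPT_ge (isInstance_scale 14328 items (by decide))
        (not_packs_of_not_PK 14328 (by norm_num) items 10 items_unpackable)
    have h2 := LP_le 14328 (by norm_num) items pats 140 (by norm_num) (by decide +kernel) (by decide +kernel) (by decide +kernel)
    have h3 : ((pats.map (fun p => p.2)).sum : ℕ) = 1371 := by decide +kernel
    rw [h3] at h2
    have h4 : (11:ℝ) ≤ (OPT (items.map (fun x : ℕ => (x : ℚ) / ((14328 : ℕ) : ℚ))) : ℝ) := by
      exact_mod_cast h1
    push_cast at h2 ⊢
    linarith
end Vale.Agent.Results.P302.Gap169_140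

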