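import Vale.Agent.Lib.P302.Bounds
import Vale.Agent.Lib.P302.BinCheck

namespace Vale.Agent.Results.P302.Gap275_228
open Vale.Agent.Lib.P302

/-- Integer item sizes; the bin capacity is `14328`. -/
def items : List ℕ := [10429, 10425, 10416, 9984, 6624, 6240, 6168, 5616, 5304, 4872, 4776, 4704, 4512, 4416, 4344, 4344, 4152, 4032, 1968, 1957, 1956, 1954, 1951, 1949, 1945]

/-- Auxiliary reference list (not packable into 6 bins), dominated by every leaf of the search. -/
def ref : List ℕ := [9984, 6624, 6240, 6168, 5616, 5304, 4872, 4776, 4704, 4512, 4416, 4344, 4344, 4152, 4032, 1945, 1945]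

/-- A fractional solution of the configuration LP: patterns with numerators over the denominator `228`. -/
def pats : List (List ℕ × ℕ) :=
  [([10429, 1949, 1949], 114), ([6240, 5616, 1968], 6), ([10429, 1954, 1945], 114), ([6240, 4032, 4032], 114), ([6624, 6624], 114), ([6240, 6240], 27), ([10416, 1957, 1954], 114), ([5304, 4512, 4512], 114), ([6240, 4152, 1968, 1968], 54), ([5304, 4872, 4152], 66), ([4776, 4776, 4776], 76), ([4872, 4704, 4704], 114), ([4872, 4872, 4416], 24), ([5616, 4344, 4344], 114), ([5304, 4416, 4416], 48), ([9984, 4344], 228), ([5616, 4416, 4152], 108), ([6168, 6168, 1968], 114), ([10416, 1956, 1956], 114), ([10425, 1951, 1951], 114), ([10425, 1957, 1945], 114)]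

theorem ref_unpackable : ¬ PK 14328 6 (ref : Multiset ℕ) :=
  not_PK_of_pack 14328 6 ref (by decide +kernel)

theorem items_unpackable : ¬ PK 14328 (3 + 6) (items : Multiset ℕ) :=
  not_PK_of_pack_ref 14328 3 6 ref items ref_unpackable (by decide +kernel)

theorem result : ∃ a : List ℚ, IsInstance a ∧ (275:ℝ)/228 ≤ (OPT a : ℝ) - LP a := by
  refine ⟨items.map (fun x : ℕ => (x : ℚ) / ((14328 : ℕ) : ℚ)), ?_, ?_⟩
  · exact isInstance_scale 14328 items (by decide)
  · have h1 : 9 + 1 ≤ OPT (items.map (fun x : ℕ => (x : ℚ) / ((14328 : ℕ) : ℚ))) :=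
      OPT_ge (isInstance_scale 14328 items (by decide))
        (not_packs_of_not_PK 14328 (by norm_num) items 9 items_unpackable)
    have h2 := LP_le 14328 (by norm_num) items pats 228 (by norm_num) (by decide +kernel) (by decide +kernel) (by decide +kernel)
    have h3 : ((pats.map (fun p => p.2)).sum : ℕ) = 2005 := by decide +kernel
    rw [h3] at h2
    have h4 : (10:ℝ) ≤ (OPT (items.map (fun x : ℕ => (x : ℚ) / ((14328 : ℕ) : ℚ))) : ℝ) := by
      exact_mod_cast h1
    push_cast at h2 ⊢
    linarith
end Vale.Agent.Results.P302.Gap275_228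

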