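import Vale.Agent.Lib.P302.Bounds
import Vale.Agent.Lib.P302.BinCheck

namespace Vale.Agent.Results.P302.Gap491_408
open Vale.Agent.Lib.P302

/-- Integer item sizes; the bin capacity is `35250`. -/
def items : List ℕ := [27015, 27011, 27002, 17531, 15604, 15557, 14382, 12173, 11891, 11750, 11656, 11468, 11468, 10528, 10293, 10058, 9776, 8366, 8366, 8366, 4136, 4125, 4124, 4122, 4119, 4117, 4113]

/-- Auxiliary reference list (not packable into 6 bins), dominated by every leaf of the search. -/
def ref : List ℕ := [17531, 15604, 15557, 14382, 12173, 11891, 11750, 11656, 11468, 11468, 10528, 10293, 10058, 9776, 8366, 8366, 8366, 4113, 4113]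

/-- A fractional solution of the configuration LP: patterns with numerators over the denominator `408`. -/
def pats : List (List ℕ × ℕ) :=
  [([27015, 4122, 4113], 204), ([27002, 4125, 4122], 204), ([15557, 15557, 4136], 204), ([17531, 17531], 204), ([14382, 10058, 10058], 24), ([14382, 10293, 10293], 204), ([12173, 11468, 11468], 357), ([11891, 11891, 11468], 102), ([11750, 11750, 11750], 136), ([14382, 10528, 10058], 18), ([14382, 8366, 8366, 4136], 111), ([10528, 10528, 10058, 4136], 93), ([15604, 9776, 9776], 204), ([27015, 4117, 4117], 204), ([11891, 11656, 11656], 204), ([10058, 8366, 8366, 8366], 249), ([15604, 10528, 8366], 204), ([14382, 12173, 8366], 51), ([27002, 4124, 4124], 204), ([27011, 4119, 4119], 204), ([27011, 4125, 4113], 204)]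

theorem ref_unpackable : ¬ PK 35250 6 (ref : Multiset ℕ) :=
  not_PK_of_pack 35250 6 ref (by decide +kernel)

theorem items_unpackable : ¬ PK 35250 (3 + 6) (items : Multiset ℕ) :=
  not_PK_of_pack_ref 35250 3 6 ref items ref_unpackable (by decide +kernel)

theorem result : ∃ a : List ℚ, IsInstance a ∧ (491:ℝ)/408 ≤ (OPT a : ℝ) - LP a := by
  refine ⟨items.map (fun x : ℕ => (x : ℚ) / ((35250 : ℕ) : ℚ)), ?_, ?_⟩
  · exact isInstance_scale 35250 items (by decide)
  · have h1 : 9 + 1 ≤ OPT (items.map (fun x : ℕ => (x : ℚ) / ((35250 : ℕ) : ℚ))) :=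
      OPT_ge (isInstance_scale 35250 items (by decide))
        (not_packs_of_not_PK 35250 (by norm_num) items 9 items_unpackable)
    have h2 := LP_le 35250 (by norm_num) items pats 408 (by norm_num) (by decide +kernel) (by decide +kernel) (by decide +kernel)
    have h3 : ((pats.map (fun p => p.2)).sum : ℕ) = 3589 := by decide +kernel
    rw [h3] at h2
    have h4 : (10:ℝ) ≤ (OPT (items.map (fun x : ℕ => (x : ℚ) / ((35250 : ℕ) : ℚ))) : ℝ) := by
      exact_mod_cast h1
    push_cast at h2 ⊢
    linarith
end Vale.Agent.Results.P302.Gap491_408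

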